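import Vale.Agent.P352X.R.GRP.C
import Vale.Agent.P352L.R.Br

/-!
# P352L, row GRP: the action on the fields
-/

set_option linter.all false

noncomputable section

open MeasureTheory Filter Topology Set
open scoped SchwartzMap ComplexConjugate LineDeriv

namespace Vale.Agent.P352L.Grp

open Vale.Agent.P352X
export Vale.Agent.P352X.Grp (afs_smul afs_sum coe fC fld_smul fld_sum simS simS_apply
  sum4 test_dv test_pd test_sim toC tsl_sim ug_inner uni)
export Vale.Agent.P352X (afs_of_aff)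

open Vale.Agent.P352 Vale.Agent.P352.GF Vale.Agent.P352.BW
open Vale.Agent.P352.H246 Vale.Agent.P352.H496 Vale.Agent.P352.H755 Vale.Agent.P352.H15
open UniformSpace (Completion)
open Vale.Agent.P352X.Br

/-! ### test functions -/

variable {D : Type*} [NormedAddCommGroup D] [InnerProductSpace ℂ D] {Q : Theory D}
  {A : (V → V) → D → D} {T : Ix → Ix → Fld D} {B : Fld D} {TT : ℝ → Ix → Ix → Fld D} {n0 : ℕ}

lemma T_fld (hT : Stress0 Q T) (m n : Ix) : Q.fld (T m n) := Q.bose_fld _ (hT.bose m n)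

lemma T_hk (hT : Stress0 Q T) (h k : V) {f : Fn} (hf : GF.IsTest f) (v : D) :
    ∑ m, ∑ n, T m n (hk h k f m n) v =
      ∑ m, ∑ n, ((eta m * h m * (eta n * k n) : ℝ) : ℂ) • T m n f v :=
  Finset.sum_congr rfl fun m _ => Finset.sum_congr rfl fun n _ => fld_smul (T_fld hT m n) _ hf v

lemma ten (hF : Fam Q TT n0) (τ : ℝ) {s : ℝ} {L : Ix → V} (a h k : V) {f : Fn} (v : D)
    (hs : 0 < s) (hL : IsLor L) (hf : GF.IsTest f) :
    Q.U s L a (∑ m, ∑ n, TT τ m n (hk h k (fun x => f (sim s L a x)) m n) v) =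
      ∑ m, ∑ n, TT (τ + Real.log s) m n (hk (sim 1 L 0 h) (sim 1 L 0 k) f m n) (Q.U s L a v) := by
  rw [T_hk (hF.st _) _ _ hf, T_hk (hF.st _) _ _ (test_sim hs hL a hf), ← ueI_apply hs hL]
  simp only [hF.cov τ _ _ s L a f v hs hL hf, map_sum, map_smul, ueI_apply, Finset.smul_sum,
    smul_smul]
  rw [sum4]
  refine Finset.sum_congr rfl fun m _ => Finset.sum_congr rfl fun n _ => ?_
  simp only [← Finset.sum_smul]
  congr 1
  rw [← md_L hL m h, ← md_L hL n k, GF.mdot, GF.mdot, Finset.sum_mul_sum]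
  push_cast
  exact Finset.sum_congr rfl fun i _ => Finset.sum_congr rfl fun j _ => by ring

lemma th (hF : Fam Q TT n0) (τ : ℝ) {s : ℝ} {L : Ix → V} (a : V) {f : Fn} (v : D) (hs : 0 < s)
    (hL : IsLor L) (hf : GF.IsTest f) : Q.U s L a (GF.tr (TT τ) (fun x => f (sim s L a x)) v) =
      GF.tr (TT (τ + Real.log s)) f (Q.U s L a v) := by
  rw [GF.tr, GF.tr, ← ueI_apply hs hL]
  simp only [hF.cov τ _ _ s L a f v hs hL hf, map_sum, map_smul, ueI_apply, Finset.smul_sum,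
    smul_smul]
  rw [Finset.sum_comm]
  refine Finset.sum_congr rfl fun k _ => ?_
  rw [Finset.sum_comm]
  simp only [← Finset.sum_smul]
  have e : ∀ l, ∑ m, (eta m : ℂ) * ((L k m : ℂ) * L l m) = (bas k (eta k) l : ℝ) := fun l => by
    rw [← hL.1 k l, GF.mdot]
    push_cast
    exact Finset.sum_congr rfl fun j _ => by ring
  simp only [e, bas]
  simp [apply_ite Complex.ofReal, ite_smul]

lemma cons (hT : Stress0 Q T) (h : V) {f : Fn} (v : D) (hf : GF.IsTest f) :
    ∑ m, ∑ n, T m n (hk va h (dv vb f) m n) v + ∑ m, ∑ n, T m n (hk vb h (dv va f) m n) v -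
      ∑ i, ∑ m, ∑ n, T m n (hk (ex i) h (dv (ex i) f) m n) v = 0 := by
  have e : ∀ y m n, T m n (dv y f) v = ∑ k, (y k : ℂ) • T m n (pd k f) v := fun y m n =>
    fld_sum (T_fld hT m n) _ _ (fun k => test_pd k hf) v
  have h0 := fun n => hT.conserved n f v hf
  simp only [T_hk hT _ _ (test_dv _ hf), e]
  have h1 := h0 0
  have h2 := h0 1
  have h3 := h0 2
  have h4 := h0 3
  simp [Fin.sum_univ_four, va, vb, ex, tv, pt, e2, eta, o] at h1 h2 h3 h4 ⊢
  linear_combination (norm := module) (h 0 : ℂ) • h1 - (h 1 : ℂ) • h2 - (h 2 : ℂ) • h3 -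
    (h 3 : ℂ) • h4

lemma trace (hT : Stress0 Q T) {f : Fn} (v : D) (hf : GF.IsTest f) : GF.tr T f v =
    (2 : ℂ) • ∑ m, ∑ n, T m n (hk va vb f m n) v - ∑ i, ∑ m, ∑ n, T m n (hk (ex i) (ex i) f m n) v := by
  have h1 := hT.symm 0 1 f v hf
  simp only [T_hk hT _ _ hf, GF.tr]
  simp [Fin.sum_univ_four, va, vb, ex, tv, pt, e2, eta, o]
  linear_combination (norm := module) -h1

/-! ### the potential -/

variable {l : ℝ → Fn → Completion D}

lemma pot (R : Rep Q A) (hl : PotF Q TT l n0) (τ : ℝ) {s : ℝ} {L : Ix → V} (a : V) {f : Fn}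
    (hs : 0 < s) (hL : IsLor L) (hf : GF.IsTest f) :
    Ug Q s L a (l τ fun x => f (sim s L a x)) = ((s ^ 2)⁻¹ : ℝ) • l (τ + Real.log s) f := by
  have h1 : ∀ w, inner ℂ (Ug Q s L a w) (l (τ + Real.log s) f) =
      (s ^ 2 : ℝ) * inner ℂ w (l τ fun x => f (sim s L a x)) := fun w =>
    Completion.induction_on w (isClosed_eq (by fun_prop) (by fun_prop)) fun v => by
      rw [coe hs hL, hl.cov τ s L a f v hs hL hf]
  refine ext_inner_left ℂ fun z => ?_
  have h2 : z = Ug Q s L a (star (Ug Q s L a) z) := by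
    rw [← mul_apply_eq_comp, (uni R s L a).2]
    rfl
  have h3 : ((s ^ 2 : ℝ) : ℂ) ≠ 0 := Complex.ofReal_ne_zero.2 (by positivity)
  rw [h2, ug_inner hs hL, ← Complex.coe_smul, inner_smul_right, h1, Complex.ofReal_inv,
    inv_mul_cancel_left₀ h3]

/-! ### one point functions -/

lemma inv_zero (Λ : ℝ → Sch →L[ℂ] ℂ) (κ : ℂ) (hκ : ‖κ / 16‖ < 1)
    (h0 : ∀ g, IsPol n0 fun τ => Λ τ g) (h1 : ∀ τ a g, Λ τ (ST.tsl a g) = Λ τ g)
    (h2 : ∀ τ g, Λ (τ + Real.log 2) g = κ * Λ τ (simS two_pos H496.isLor_one 0 g)) (τ : ℝ)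
    (g : Sch) : Λ τ g = 0 := by
  obtain ⟨φ, hφ⟩ := ST.exists_ai (volume : Measure V)
  have h3 : ∀ τ f, Λ τ f = (∫ x, f x) * Λ τ (φ 0) := fun τ f => by
    have h4 := (ST.clm_cnv (μ := volume) (Λ τ) f (φ 0)).2
    have h5 := (ST.clm_cnv (μ := volume) (Λ τ) (φ 0) f).2
    rw [ST.cnv_comm, h4] at h5
    simp only [h1, integral_smul_const, hφ.one 0, one_smul] at h5
    exact h5.symm
  have h4 : ∫ x, simS two_pos H496.isLor_one 0 (φ 0) x = 16⁻¹ := by
    simp only [simS_apply, sim_s 2, H26.sim_one0]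
    rw [Measure.integral_comp_smul volume (fun x => φ 0 x) 2, hφ.one 0]
    norm_num
  have h5 : ∀ k : ℕ, Λ (k * Real.log 2) (φ 0) = (κ / 16) ^ k * Λ 0 (φ 0) := fun k => by
    induction k with
    | zero => simp
    | succ k ih =>
      rw [Nat.cast_succ, add_one_mul, h2, h3 _ (simS _ _ _ _), h4, ih]
      ring
  have h6 : Tendsto (fun k : ℕ => |k * Real.log 2|) atTop atTop :=
    tendsto_abs_atTop_atTop.comp
      (tendsto_natCast_atTop_atTop.atTop_mul_const (Real.log_pos one_lt_two))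
  have h7 := (h0 (φ 0)).eq_of_tendsto (a := 0) h6 (by
    simpa only [h5, zero_mul] using
      (tendsto_pow_atTop_nhds_zero_of_norm_lt_one hκ).mul_const (Λ 0 (φ 0))) τ
  rw [h3, h7, mul_zero]

lemma perp (hF : Fam Q TT n0) (τ : ℝ) (m n : Ix) {f : Fn} (hf : GF.IsTest f) :
    inner ℂ Q.vac (TT τ m n f Q.vac) = 0 := by
  obtain ⟨g, rfl⟩ := hf
  have key : ∀ τ s a (g : Sch), 0 < s → inner ℂ Q.vac (TT (τ + Real.log s) m n (ev g) Q.vac) =
      inner ℂ Q.vac (TT τ m n (fun x => ev g (sim s GF.one a x)) Q.vac) := fun τ s a g hs => by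
    have h1 := hF.cov τ m n s GF.one a (ev g) Q.vac hs H496.isLor_one ⟨g, rfl⟩
    rw [Q.U_vac s _ a hs H496.isLor_one] at h1
    simp [GF.one, bas, apply_ite Complex.ofReal, ite_smul] at h1
    rw [h1, ← Q.U_inner s GF.one a Q.vac (TT τ m n _ _) hs H496.isLor_one,
      Q.U_vac s _ a hs H496.isLor_one]
  refine inv_zero (n0 := n0)
    (fun τ => innerSL ℂ Q.vac ∘L fC (T_fld (hF.st τ) m n) Q.vac) 1 (by norm_num)
    (fun g => (hF.pol m n _ Q.vac ⟨g, rfl⟩).map ((innerSL ℂ Q.vac).restrictScalars ℝ).toLinearMap)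
    (fun τ a g => ?_) (fun τ g => ?_) τ g
  · have := key τ 1 a (ST.tsl a g) one_pos
    rw [Real.log_one, add_zero, tsl_sim] at this
    exact this
  · rw [one_mul]
    refine (key τ 2 0 g two_pos).trans ?_
    rw [show (fun x => ev g (sim 2 GF.one 0 x)) = ev (simS two_pos H496.isLor_one 0 g) from
      (funext (simS_apply _ _ _ g)).symm]
    rfl

lemma perpl (hl : PotF Q TT l n0) (τ : ℝ) {f : Fn} (hf : GF.IsTest f) :
    inner ℂ (om Q) (l τ f) = 0 := by
  obtain ⟨g, rfl⟩ := hf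
  have key : ∀ τ s a (g : Sch), 0 < s → inner ℂ (om Q) (l (τ + Real.log s) (ev g)) =
      (s ^ 2 : ℝ) * inner ℂ (om Q) (l τ fun x => ev g (sim s GF.one a x)) := fun τ s a g hs => by
    have h1 := hl.cov τ s GF.one a (ev g) Q.vac hs H496.isLor_one ⟨g, rfl⟩
    rwa [Q.U_vac s _ a hs H496.isLor_one] at h1
  refine inv_zero (n0 := n0)
    (fun τ => innerSL ℂ (om Q) ∘L toC (l τ) (hl.st τ).lin (hl.st τ).cont) 4 (by norm_num)
    (fun g => (hl.pol _ ⟨g, rfl⟩).map ((innerSL ℂ (om Q)).restrictScalars ℝ).toLinearMap)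
    (fun τ a g => ?_) (fun τ g => ?_) τ g
  · have := key τ 1 a (ST.tsl a g) one_pos
    rw [Real.log_one, add_zero, tsl_sim, one_pow, Complex.ofReal_one, one_mul] at this
    exact this
  · refine (key τ 2 0 g two_pos).trans ?_
    rw [show (fun x => ev g (sim 2 GF.one 0 x)) = ev (simS two_pos H496.isLor_one 0 g) from
      (funext (simS_apply _ _ _ g)).symm]
    norm_num
    rfl

/-! ### polynomial dependence on the member -/

lemma pol_coe {n : ℕ} {F : ℝ → D} (h : IsPol n F) : IsPol n fun τ => (F τ : Completion D) :=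
  h.map ((Completion.toComplL (𝕜 := ℂ)).restrictScalars ℝ).toLinearMap

lemma polf (hF : Fam Q TT n0) (τ : ℝ) {F : Ix → Ix → Fn} (v : D) (h : ∀ m n, GF.IsTest (F m n)) :
    IsPol n0 fun x => ∑ m, ∑ n, TT (τ + x) m n (F m n) v :=
  .sum _ fun m _ => .sum _ fun n _ => (hF.pol m n _ v (h m n)).shift' τ

lemma polh (hF : Fam Q TT n0) (τ : ℝ) {f : Fn} (v : D) (h : GF.IsTest f) :
    IsPol n0 fun x => GF.tr (TT (τ + x)) f v :=
  .sum _ fun m _ => ((hF.pol m m _ v h).shift' τ).smul _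

/-! ### affiliation -/

variable {M : VonNeumannAlgebra (Completion D)} {X X' Y Y' : D → D}

variable {N : Set V → VonNeumannAlgebra (Completion D)}

lemma afs_T (hN : LNm Q A N) (hT : Stress0 Q T) (m n : Ix) {O : Set V} {f : Fn} (hf : In O f) :
    BW.T.Afs (N O) (T m n f) (T m n (bar f)) :=
  afs_of_aff (fun v w => hT.herm m n f v w hf.1) (hN.fld O _ f (T_fld hT m n) hf)

lemma afft (hN : LNm Q A N) (hT : Stress0 Q T) {O : Set V} {F : Ix → Ix → Fn}
    (hF : ∀ m n, In O (F m n)) : BW.T.Afs (N O) (fun v => ∑ m, ∑ n, T m n (F m n) v)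
      fun v => ∑ m, ∑ n, T m n (bar (F m n)) v :=
  afs_sum _ fun m => afs_sum _ fun n => afs_T hN hT m n (hF m n)

lemma affh (hN : LNm Q A N) (hT : Stress0 Q T) {O : Set V} {f : Fn} (hf : In O f) :
    BW.T.Afs (N O) (GF.tr T f) (GF.tr T (bar f)) := by
  have h := afs_sum Finset.univ fun m => afs_smul (eta m : ℂ) (afs_T hN hT m m hf)
  simp only [Complex.star_def, Complex.conj_ofReal] at h
  exact h

end Vale.Agent.P352L.Grp

end
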